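import Vale.Agent.Lib.P249.Incompressible

/-!
# P249: logarithmic `ε`-isometric dimension reduction for incompressible subsets of `L_p`

If `x_1, …, x_n ∈ L_p(μ)` satisfy `‖max_i |x_i|‖_p ≤ K`, then there are `y_1, …, y_n ∈ ℓ_p^d` with
`d ≤ 14 (2K)^(2p) log n / ε^2` and `| ‖y_i - y_j‖^p - ‖x_i - x_j‖^p | ≤ ε`.
-/

namespace Vale.Agent.Results.P249.Incompressible

open MeasureTheory
open scoped ENNReal

universe u

theorem result (p : ℝ≥0∞) [Fact (1 ≤ p)] (hp : p ≠ ∞)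
    {Ω : Type u} [MeasurableSpace Ω] (μ : Measure Ω) (n : ℕ) (hn : 2 ≤ n)
    (x : Fin n → Lp ℝ p μ) (K ε : ℝ) (hK : 0 < K) (hε : 0 < ε)
    (hmax : eLpNorm (fun ω => ⨆ i, |x i ω|) p μ ≤ ENNReal.ofReal K) :
    ∃ d : ℕ, (d : ℝ) ≤ 14 * (2 * K) ^ (2 * p.toReal) * Real.log n / ε ^ 2 ∧
      ∃ y : Fin n → PiLp p (fun _ : Fin d => ℝ), ∀ i j,
        |dist (y i) (y j) ^ p.toReal - dist (x i) (x j) ^ p.toReal| ≤ ε :=
  Vale.Agent.Lib.P249.incompressible μ p hp n hn x K ε hK hε hmax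

end Vale.Agent.Results.P249.Incompressible
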