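import Vale.Agent.Lib.P249.Wrap
import Vale.Agent.Lib.P249.LpFacts

/-!
# P249: near-linear dimension reduction for finite subsets of `L_p`, all `1 ≤ p < ∞`

Every `n`-point subset of every `L_p(μ)` maps into `ℓ_p^d` with distortion at most `D`, where
`d ≤ (72 * 6^p + 2^(p+1)) * ((D+1)/(D-1))^2 * n * (log n)^(p+2)`.
-/

namespace Vale.Agent.Results.P249.NearLinearLp

open MeasureTheory
open scoped ENNReal

universe u

theorem result (p : ℝ≥0∞) [Fact (1 ≤ p)] (hp : p ≠ ∞) (D : ℝ) (hD : 1 < D)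
    {Ω : Type u} [MeasurableSpace Ω] (μ : Measure Ω) (X : Finset (Lp ℝ p μ))
    (hX : 2 ≤ X.card) :
    ∃ (d : ℕ) (f : Lp ℝ p μ → PiLp p (fun _ : Fin d => ℝ)) (s : ℝ),
      (d : ℝ) ≤ (72 * (6 : ℝ) ^ p.toReal + (2 : ℝ) ^ (p.toReal + 1)) *
          ((D + 1) / (D - 1)) ^ 2 * X.card * Real.log X.card ^ (p.toReal + 2) ∧
      0 < s ∧
      ∀ x ∈ X, ∀ y ∈ X,
        s * dist x y ≤ dist (f x) (f y) ∧ dist (f x) (f y) ≤ D * s * dist x y :=
  Vale.Agent.Lib.P249.wrap X μ (fun a => (a : Ω → ℝ)) p hp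
    (Vale.Agent.Lib.P249.Lp_integrable_abs_sub_rpow hp)
    (Vale.Agent.Lib.P249.Lp_integral_abs_sub_rpow hp) hD hX

end Vale.Agent.Results.P249.NearLinearLp
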