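import Vale.Agent.Lib.P249.LowerWrap

/-!
# P249: a superlogarithmic lower bound for dimension reduction in `L_p`, `p > 2`

For `2 ≤ p < ∞` and `n ≥ 4` there is an `n`-point subset of some `ℓ_p^N` such that every map of
distortion at most `D` into `ℓ_p^d` (linear or not) has
`8 d ≥ (sqrt (log n / (2 log (2 log n + 1))) / (p D))^p`.
-/

namespace Vale.Agent.Results.P249.SuperLogLower

open scoped ENNReal

theorem result (p : ℝ≥0∞) [Fact (1 ≤ p)] (hp : p ≠ ∞) (hp2 : 2 ≤ p) (n : ℕ) (hn : 4 ≤ n) :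
    ∃ (N : ℕ) (X : Finset (PiLp p (fun _ : Fin N => ℝ))), X.card = n ∧
      ∀ (D s : ℝ) (d : ℕ)
        (f : PiLp p (fun _ : Fin N => ℝ) → PiLp p (fun _ : Fin d => ℝ)),
        1 ≤ D → 0 < s →
        (∀ x ∈ X, ∀ y ∈ X,
          s * dist x y ≤ dist (f x) (f y) ∧ dist (f x) (f y) ≤ D * s * dist x y) →
        (Real.sqrt (Real.log n / (2 * Real.log (2 * Real.log n + 1))) / (p.toReal * D)) ^ p.toReal
          ≤ 8 * d :=
  Vale.Agent.Lib.P249.lower_clean p hp hp2 n hn

end Vale.Agent.Results.P249.SuperLogLower
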