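import Vale.Agent.Lib.P249.Wrap
import Vale.Agent.Lib.P249.LpFacts
import Vale.Agent.Lib.P249.LowerWrap

/-!
# P249: two-sided bounds for dimension reduction in `L_p`, `2 ≤ p < ∞`

Upper bound: every `n`-point subset of every `L_p(μ)` maps into `ℓ_p^d` with distortion at most `D`
for some `d ≤ C(p, D) n (log n)^(p+2)`.
Lower bound: some `n`-point subset of some `ℓ_p^N` needs
`8 d ≥ (sqrt (log n / (2 log (2 log n + 1))) / (p D))^p`.
-/

namespace Vale.Agent.Results.P249.TwoSided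

open MeasureTheory
open scoped ENNReal

universe u

theorem result (p : ℝ≥0∞) [Fact (1 ≤ p)] (hp : p ≠ ∞) (hp2 : 2 ≤ p) (D : ℝ) (hD : 1 < D)
    (n : ℕ) (hn : 4 ≤ n) :
    (∀ (Ω : Type u) [MeasurableSpace Ω] (μ : Measure Ω) (X : Finset (Lp ℝ p μ)), X.card = n →
      ∃ (d : ℕ) (f : Lp ℝ p μ → PiLp p (fun _ : Fin d => ℝ)) (s : ℝ),
        (d : ℝ) ≤ (72 * (6 : ℝ) ^ p.toReal + (2 : ℝ) ^ (p.toReal + 1)) *
            ((D + 1) / (D - 1)) ^ 2 * n * Real.log n ^ (p.toReal + 2) ∧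
        0 < s ∧
        ∀ x ∈ X, ∀ y ∈ X,
          s * dist x y ≤ dist (f x) (f y) ∧ dist (f x) (f y) ≤ D * s * dist x y) ∧
    (∃ (N : ℕ) (X : Finset (PiLp p (fun _ : Fin N => ℝ))), X.card = n ∧
      ∀ (d : ℕ) (f : PiLp p (fun _ : Fin N => ℝ) → PiLp p (fun _ : Fin d => ℝ)) (s : ℝ),
        0 < s →
        (∀ x ∈ X, ∀ y ∈ X,
          s * dist x y ≤ dist (f x) (f y) ∧ dist (f x) (f y) ≤ D * s * dist x y) →
        (Real.sqrt (Real.log n / (2 * Real.log (2 * Real.log n + 1))) / (p.toReal * D)) ^ p.toReal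
          ≤ 8 * d) := by
  constructor
  · intro Ω _ μ X hX
    have h := Vale.Agent.Lib.P249.wrap X μ (fun a => (a : Ω → ℝ)) p hp
      (Vale.Agent.Lib.P249.Lp_integrable_abs_sub_rpow hp)
      (Vale.Agent.Lib.P249.Lp_integral_abs_sub_rpow hp) hD (by omega)
    rw [hX] at h
    exact h
  · obtain ⟨N, X, hX, h⟩ := Vale.Agent.Lib.P249.lower_clean p hp hp2 n hn
    exact ⟨N, X, hX, fun d f s hs hf => h D s d f hD.le hs hf⟩

end Vale.Agent.Results.P249.TwoSided
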